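import Vale.Agent.P354RC.Alg

/-!
The Ricci curvature in components.
-/

set_option maxSynthPendingDepth 3

open scoped ContDiff
open Set Filter Topology

namespace Vale.Agent.P354RK

open Vale.Agent.P354n (R4)
open Vale.Agent.P354R Vale.Agent.P354RC

/-- Christoffel symbols of the first kind from the first derivatives. -/
noncomputable def c1 (G1 : Fin 4 → Fin 4 → Fin 4 → ℝ) (a b c : Fin 4) : ℝ :=
  (G1 a b c + G1 b a c - G1 c a b) / 2

/-- Christoffel symbols of the second kind. -/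
noncomputable def c2 (gi : Fin 4 → Fin 4 → ℝ) (G1 : Fin 4 → Fin 4 → Fin 4 → ℝ) (a b m : Fin 4) : ℝ :=
  ∑ n, gi m n * c1 G1 a b n

/-- The curvature from the inverse metric, the first and the second derivatives. -/
noncomputable def rmA (gi : Fin 4 → Fin 4 → ℝ) (G1 : Fin 4 → Fin 4 → Fin 4 → ℝ)
    (G2 : Fin 4 → Fin 4 → Fin 4 → Fin 4 → ℝ) (a b c d : Fin 4) : ℝ :=
  c1 (G2 a) b c d - c1 (G2 b) a c d - ∑ m, c2 gi G1 a d m * c1 G1 b c m +
    ∑ m, c2 gi G1 b d m * c1 G1 a c m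

variable {g : R4 → R4 → R4 → ℝ} {h : R4 → B2} {D : Set R4} {y : R4} {gi : Fin 4 → Fin 4 → ℝ}

theorem lin_bs (l : R4 →L[ℝ] ℝ) (c : R4) : l c = ∑ i, cv i c * l (bs i) := by
  conv_lhs => rw [← sum_bs c]
  simp only [map_sum, map_smul, smul_eq_mul]

theorem inv_comp (r : Rp g h D) (hy : y ∈ D)
    (hi : ∀ i l, ∑ k, gi k l * h y (bs k) (bs i) = if i = l then 1 else 0) (l : R4 →L[ℝ] ℝ) :
    (h y).inverse l = ∑ k, (∑ n, gi k n * l (bs n)) • bs k := r.ext hy fun c => by
  rw [r.inv hy, lin_bs l, lin_bs (h y _)]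
  refine Finset.sum_congr rfl fun i _ => congrArg _ ?_
  simp only [map_sum, map_smul, sum_apply, smul_apply, smul_eq_mul, Finset.sum_mul]
  rw [Finset.sum_comm]
  simp only [mul_right_comm _ (l _), ← Finset.sum_mul, hi]
  simp

theorem ric_comp (r : Rp g h D) (hy : y ∈ D)
    (hi : ∀ i l, ∑ k, gi k l * h y (bs k) (bs i) = if i = l then 1 else 0) (j k : Fin 4) :
    Ric h y (bs j) (bs k) = ∑ i, ∑ l, gi l i * rmA gi (fun a b c => fderiv ℝ h y (bs a) (bs b) (bs c))
      (fun a b c d => fderiv ℝ (fderiv ℝ h) y (bs a) (bs b) (bs c) (bs d)) i j k l := by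
  refine Finset.sum_congr rfl fun i _ => ?_
  have e : ∀ a b c d, h y (Gm h y (bs a) (bs b)) (Gm h y (bs c) (bs d)) =
      ∑ m, c2 gi (fun a b c => fderiv ℝ h y (bs a) (bs b) (bs c)) c d m *
        c1 (fun a b c => fderiv ℝ h y (bs a) (bs b) (bs c)) a b m := fun a b c d => by
    rw [r.gm hy, Gm, inv_comp r hy hi]
    simp only [map_sum, map_smul, smul_eq_mul, c2, c1, ← C1_ap]
  rw [inv_comp r hy hi]
  refine (map_sum (RmL h y (bs j) (bs k) (bs i)) _ _).trans (Finset.sum_congr rfl fun l _ => ?_)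
  rw [map_smul, smul_eq_mul]
  congr 1
  · simp [cv_bs]
  · show Rm h y _ _ _ _ = _
    rw [Rm, e, e]
    rfl

theorem ric_zero (k : ∀ j k, Ric h y (bs j) (bs k) = 0) (b c : R4) : Ric h y b c = 0 := by
  let L : R4 →ₗ[ℝ] R4 →ₗ[ℝ] ℝ := LinearMap.mk₂ ℝ (Ric h y)
    (fun _ _ _ => by
      simp only [Ric, ← Finset.sum_add_distrib, Rm, dC, Gm_add1, map_add, add_apply]
      exact Finset.sum_congr rfl fun _ _ => by ring)
    (fun _ _ _ => by
      simp only [Ric, Finset.mul_sum, Rm, dC, Gm_smul1, map_smul, smul_apply, smul_eq_mul]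
      exact Finset.sum_congr rfl fun _ _ => by ring)
    (fun _ _ _ => by
      simp only [Ric, ← Finset.sum_add_distrib, Rm, dC, Gm_add2, map_add, add_apply]
      exact Finset.sum_congr rfl fun _ _ => by ring)
    (fun _ _ _ => by
      simp only [Ric, Finset.mul_sum, Rm, dC, Gm_smul2, map_smul, smul_apply, smul_eq_mul]
      exact Finset.sum_congr rfl fun _ _ => by ring)
  have e : ∀ b c, Ric h y b c = L b c := fun _ _ => rfl
  rw [e, ← sum_bs b, ← sum_bs c]
  simp only [map_sum, map_smul, LinearMap.sum_apply, LinearMap.smul_apply, ← e, k, smul_zero,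
    Finset.sum_const_zero]

theorem fd1 (hh : ContDiffAt ℝ ∞ h y) (a b c : R4) :
    fderiv ℝ h y a b c = fderiv ℝ (fun z => h z b c) y a := by
  rw [fd_ap0 (hh.clm_apply contDiffAt_const), fd_ap0 hh]

theorem fd2 (hh : ContDiffAt ℝ ∞ h y) (a b c d : R4) :
    fderiv ℝ (fderiv ℝ h) y a b c d = fderiv ℝ (fun z => fderiv ℝ h z b c d) y a := by
  have k := at_fd hh
  rw [fd_ap0 ((k.clm_apply contDiffAt_const).clm_apply contDiffAt_const),
    fd_ap0 (k.clm_apply contDiffAt_const), fd_ap0 k]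

end Vale.Agent.P354RK
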