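import Vale.Agent.P354RK.Met

/-!
The Kerr metric is a vacuum metric.
-/

set_option linter.all false

open scoped ContDiff
open Set Filter Topology

namespace Vale.Agent.P354RK

open Vale.Agent.P354n (R4)
open Vale.Agent.P354R Vale.Agent.P354RC Ex

variable {M a : ℝ} {y : R4}

theorem rk20 (hy : y ∈ kdom M a) : rk M a y 2 0 = 0 := by
  obtain ⟨h1, h2, h3⟩ := hy
  simp only [rk, Fin.sum_univ_four, rmA, c1, c2]
  simp [gk, gik, ev, xs, xq, xp, d]
  all_goals field_simp
  all_goals simp only [Del, Sig]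
  all_goals ring

theorem rk21 (hy : y ∈ kdom M a) : rk M a y 2 1 = 0 := by
  obtain ⟨h1, h2, h3⟩ := hy
  simp only [rk, Fin.sum_univ_four, rmA, c1, c2]
  simp [gk, gik, ev, xs, xq, xp, d]
  all_goals field_simp
  all_goals simp only [Del, Sig]
  all_goals ring

theorem rk22 (hy : y ∈ kdom M a) : rk M a y 2 2 = 0 := by
  obtain ⟨h1, h2, h3⟩ := hy
  simp only [rk, Fin.sum_univ_four, rmA, c1, c2]
  simp [gk, gik, ev, xs, xq, xp, d]
  all_goals field_simp
  all_goals simp only [Del, Sig]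
  all_goals ring

theorem rk23 (hy : y ∈ kdom M a) : rk M a y 2 3 = 0 := by
  obtain ⟨h1, h2, h3⟩ := hy
  simp only [rk, Fin.sum_univ_four, rmA, c1, c2]
  simp [gk, gik, ev, xs, xq, xp, d]
  all_goals field_simp
  all_goals simp only [Del, Sig]
  all_goals ring

theorem rk30 (hy : y ∈ kdom M a) : rk M a y 3 0 = 0 := by
  obtain ⟨h1, h2, h3⟩ := hy
  simp only [rk, Fin.sum_univ_four, rmA, c1, c2]
  simp [gk, gik, ev, xs, xq, xp, d]
  all_goals field_simp
  all_goals simp only [Del, Sig]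
  all_goals ring

theorem rk31 (hy : y ∈ kdom M a) : rk M a y 3 1 = 0 := by
  obtain ⟨h1, h2, h3⟩ := hy
  simp only [rk, Fin.sum_univ_four, rmA, c1, c2]
  simp [gk, gik, ev, xs, xq, xp, d]
  all_goals field_simp
  all_goals simp only [Del, Sig]
  all_goals ring

theorem rk32 (hy : y ∈ kdom M a) : rk M a y 3 2 = 0 := by
  obtain ⟨h1, h2, h3⟩ := hy
  simp only [rk, Fin.sum_univ_four, rmA, c1, c2]
  simp [gk, gik, ev, xs, xq, xp, d]
  all_goals field_simp
  all_goals simp only [Del, Sig]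
  all_goals ring

theorem rk33 (hy : y ∈ kdom M a) : rk M a y 3 3 = 0 := by
  obtain ⟨h1, h2, h3⟩ := hy
  simp only [rk, Fin.sum_univ_four, rmA, c1, c2]
  simp [gk, gik, ev, xs, xq, xp, d]
  all_goals field_simp
  all_goals simp only [Del, Sig]
  all_goals ring

end Vale.Agent.P354RK
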