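import Vale.Agent.P354RK.RicA
import Vale.Agent.P354RK.RicB

/-!
The Kerr metric is a vacuum metric.
-/

set_option maxSynthPendingDepth 3

open scoped ContDiff
open Set Filter Topology

namespace Vale.Agent.P354RK

open Vale.Agent.P354n (R4)
open Vale.Agent.P354R Vale.Agent.P354RC Ex

variable {M a : ℝ} {y : R4}

theorem rk0 (hy : y ∈ kdom M a) (j l : Fin 4) : rk M a y j l = 0 := by
  fin_cases j <;> fin_cases l
  exacts [rk00 hy, rk01 hy, rk02 hy, rk03 hy, rk10 hy, rk11 hy, rk12 hy, rk13 hy,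
    rk20 hy, rk21 hy, rk22 hy, rk23 hy, rk30 hy, rk31 hy, rk32 hy, rk33 hy]

theorem rp_kbl : Rp (kbl M a) (fld M a gk) (kdom M a) := by
  refine ⟨open_kdom, fun _ hy => kbl_eq hy, fun _ hy => (fld_cd hy).contDiffWithinAt,
    fun y hy A B => ?_, fun y hy A h => ?_⟩
  · rw [← kbl_eq hy, ← kbl_eq hy, kbl, kbl]
    ring
  · have e : ∀ l, cv l A = 0 := fun l => by
      have k : ∑ n, gik M a y n l * fld M a gk y (bs n) A = cv l A := by
        simp only [fun n => lin_bs (fld M a gk y (bs n)) A, Finset.mul_sum]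
        rw [Finset.sum_comm]
        simp only [mul_left_comm _ (cv _ A), ← Finset.mul_sum, gik_inv hy]
        simp
      rw [← k]
      refine Finset.sum_eq_zero fun n _ => ?_
      rw [← kbl_eq hy, show kbl M a y (bs n) A = kbl M a y A (bs n) by rw [kbl, kbl]; ring,
        kbl_eq hy, h, mul_zero]
    rw [← sum_bs A]
    simp [e]

/-- **K1.** -/
theorem k1 : K1 := fun M a => ⟨rp_kbl.met, rp_kbl.vac.2 fun y hy => ric_zero fun j l => by
  rw [ric_comp rp_kbl hy (gik_inv hy)]
  simp only [fld_1 hy, fld_2 hy]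
  exact rk0 hy j l⟩

end Vale.Agent.P354RK
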