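import Vale.Agent.P354RK.Comp

/-!
Rational functions of r and z with the denominators of the Kerr metric, and their derivatives.
-/

set_option maxSynthPendingDepth 3

open scoped ContDiff
open Set Filter Topology

namespace Vale.Agent.P354RK

open Vale.Agent.P354n (R4)
open Vale.Agent.P354R Vale.Agent.P354RC

/-- Expressions; u, v, w are the inverses of Sigma, Delta, 1 - z^2. -/
inductive Ex where
  | k (n : ℤ) | r | z | a | m | u | v | w
  | add (x y : Ex) | mul (x y : Ex)

open Ex

/-- The value. -/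
noncomputable def ev (M a : ℝ) (y : R4) : Ex → ℝ
  | .k n => n
  | .r => y.2.1
  | .z => y.2.2.1
  | .a => a
  | .m => M
  | .u => (Sig a y.2.1 y.2.2.1)⁻¹
  | .v => (Del M a y.2.1)⁻¹
  | .w => (1 - y.2.2.1 ^ 2)⁻¹
  | .add x x' => ev M a y x + ev M a y x'
  | .mul x x' => ev M a y x * ev M a y x'

/-- The partial derivative. -/
def d (i : Fin 4) : Ex → Ex
  | .r => if i = 1 then k 1 else k 0
  | .z => if i = 2 then k 1 else k 0
  | .u => if i = 1 then mul (k (-2)) (mul r (mul u u)) else
      if i = 2 then mul (k (-2)) (mul (mul a (mul a z)) (mul u u)) else k 0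
  | .v => if i = 1 then mul (mul (k 2) (add m (mul (k (-1)) r))) (mul v v) else k 0
  | .w => if i = 2 then mul (k 2) (mul z (mul w w)) else k 0
  | .add x x' => add (d i x) (d i x')
  | .mul x x' => add (mul (d i x) x') (mul x (d i x'))
  | _ => k 0

variable {M a : ℝ} {y : R4}

theorem open_kdom : IsOpen (kdom M a) := by
  refine (isOpen_ne_fun ?_ continuous_const).inter ((isOpen_ne_fun ?_ continuous_const).inter
    (isOpen_ne_fun ?_ continuous_const))
  · unfold Del; fun_prop
  · unfold Sig; fun_prop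
  · fun_prop

theorem ev_cd (hy : y ∈ kdom M a) (e : Ex) : ContDiffAt ℝ ∞ (fun y => ev M a y e) y := by
  induction e with
  | add x x' h h' => exact h.add h'
  | mul x x' h h' => exact h.mul h'
  | u => exact ContDiffAt.inv (f := fun y : R4 => Sig a y.2.1 y.2.2.1) (by unfold Sig; fun_prop) hy.2.1
  | v => exact ContDiffAt.inv (f := fun y : R4 => Del M a y.2.1) (by unfold Del; fun_prop) hy.1
  | w => exact ContDiffAt.inv (f := fun y : R4 => 1 - y.2.2.1 ^ 2) (by fun_prop) hy.2.2
  | _ => simp only [ev]; fun_prop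

theorem ev_fd (hy : y ∈ kdom M a) (i : Fin 4) (e : Ex) :
    fderiv ℝ (fun y => ev M a y e) y (bs i) = ev M a y (d i e) := by
  have r' : HasFDerivAt (fun y : R4 => y.2.1) (cv 1) y := (cv 1).hasFDerivAt
  have z' : HasFDerivAt (fun y : R4 => y.2.2.1) (cv 2) y := (cv 2).hasFDerivAt
  induction e with
  | add x x' h h' =>
    simp only [ev, d]
    rw [fderiv_fun_add (at_df (ev_cd hy x)) (at_df (ev_cd hy x')), add_apply, h, h']
  | mul x x' h h' =>
    simp only [ev, d]
    rw [fderiv_fun_mul (at_df (ev_cd hy x)) (at_df (ev_cd hy x')), add_apply, smul_apply,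
      smul_apply, h, h', smul_eq_mul, smul_eq_mul]
    ring
  | r => rw [show fderiv ℝ (fun y => ev M a y .r) y = _ from r'.fderiv, cv_bs, d]; split_ifs <;> simp [ev]
  | z => rw [show fderiv ℝ (fun y => ev M a y .z) y = _ from z'.fderiv, cv_bs, d]; split_ifs <;> simp [ev]
  | u =>
    rw [show fderiv ℝ (fun y => ev M a y .u) y = _ from ((hasDerivAt_inv hy.2.1).comp_hasFDerivAt y
      ((r'.pow 2).add ((z'.pow 2).const_mul (a ^ 2)))).fderiv]
    fin_cases i <;> simp [cv_bs, d, ev] <;> ring
  | v =>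
    rw [show fderiv ℝ (fun y => ev M a y .v) y = _ from ((hasDerivAt_inv hy.1).comp_hasFDerivAt y
      (((r'.pow 2).sub (r'.const_mul (2 * M))).add_const (a ^ 2))).fderiv]
    fin_cases i <;> simp [cv_bs, d, ev] <;> ring
  | w =>
    rw [show fderiv ℝ (fun y => ev M a y .w) y = _ from ((hasDerivAt_inv hy.2.2).comp_hasFDerivAt y
      ((z'.pow 2).const_sub 1)).fderiv]
    fin_cases i <;> simp [cv_bs, d, ev]
    rw [← inv_pow]
    ring
  | _ => simp [ev, d]

/-- The field of bilinear forms with the components g. -/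
noncomputable def fld (M a : ℝ) (g : Fin 4 → Fin 4 → Ex) (y : R4) : B2 :=
  ∑ i, ∑ j, ev M a y (g i j) • (cv i).smulRight (cv j)

variable {g : Fin 4 → Fin 4 → Ex}

theorem fld_ap (A B : R4) : fld M a g y A B = ∑ i, ∑ j, ev M a y (g i j) * (cv i A * cv j B) := by
  simp only [fld, sum_apply, smul_apply, ContinuousLinearMap.smulRight_apply, smul_eq_mul]

theorem fld_bs (i j : Fin 4) : fld M a g y (bs i) (bs j) = ev M a y (g i j) := by
  simp [fld_ap, cv_bs]

theorem fld_cd (hy : y ∈ kdom M a) : ContDiffAt ℝ ∞ (fld M a g) y :=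
  ContDiffAt.sum fun _ _ => ContDiffAt.sum fun _ _ => (ev_cd hy _).smul contDiffAt_const

theorem fld_1 (hy : y ∈ kdom M a) (l i j : Fin 4) :
    fderiv ℝ (fld M a g) y (bs l) (bs i) (bs j) = ev M a y (d l (g i j)) := by
  simp only [fd1 (fld_cd hy), fld_bs, ev_fd hy]

theorem fld_2 (hy : y ∈ kdom M a) (n l i j : Fin 4) :
    fderiv ℝ (fderiv ℝ (fld M a g)) y (bs n) (bs l) (bs i) (bs j) = ev M a y (d n (d l (g i j))) := by
  rw [fd2 (fld_cd hy), ← ev_fd hy]
  refine congrFun (congrArg _ (EventuallyEq.fderiv_eq ?_)) _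
  filter_upwards [open_kdom.mem_nhds hy] with x hx using fld_1 hx l i j

end Vale.Agent.P354RK
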