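import Vale.Agent.P354RK.Ex

/-!
The Kerr metric is a vacuum metric.
-/

set_option maxSynthPendingDepth 3

open scoped ContDiff
open Set Filter Topology

namespace Vale.Agent.P354RK

open Vale.Agent.P354n (R4)
open Vale.Agent.P354R Vale.Agent.P354RC Ex

/-- The expressions 1 - z^2, 2 M r / Sigma, r^2 + a^2. -/
def xs : Ex := add (k 1) (mul (k (-1)) (mul z z))
def xq : Ex := mul (mul (k 2) m) (mul r u)
def xp : Ex := add (mul r r) (mul a a)

/-- The components of the Kerr metric. -/
def gk : Fin 4 → Fin 4 → Ex :=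
  ![![add (k (-1)) xq, k 0, k 0, mul (mul (k (-1)) a) (mul xs xq)],
    ![k 0, mul (add (mul r r) (mul (mul a a) (mul z z))) v, k 0, k 0],
    ![k 0, k 0, mul (add (mul r r) (mul (mul a a) (mul z z))) w, k 0],
    ![mul (mul (k (-1)) a) (mul xs xq), k 0, k 0,
      add (mul xs xp) (mul (mul a a) (mul (mul xs xs) xq))]]

/-- The components of the inverse. -/
noncomputable def gik (M a : ℝ) (y : R4) : Fin 4 → Fin 4 → ℝ :=
  ![![-(ev M a y xp + a ^ 2 * ev M a y xs * ev M a y xq) * ev M a y v, 0, 0,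
      -a * ev M a y xq * ev M a y v],
    ![0, Del M a y.2.1 * ev M a y u, 0, 0],
    ![0, 0, ev M a y xs * ev M a y u, 0],
    ![-a * ev M a y xq * ev M a y v, 0, 0, (1 - ev M a y xq) * ev M a y v * ev M a y w]]

variable {M a : ℝ} {y : R4}

theorem kbl_eq (hy : y ∈ kdom M a) (A B : R4) : kbl M a y A B = fld M a gk y A B := by
  obtain ⟨h1, h2, h3⟩ := hy
  simp only [fld_ap, Fin.sum_univ_four, kbl]
  simp [gk, cv, ev, xs, xq, xp]
  field_simp
  simp only [Del, Sig]
  ring

theorem gik_inv (hy : y ∈ kdom M a) (i l : Fin 4) :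
    ∑ k, gik M a y k l * fld M a gk y (bs k) (bs i) = if i = l then 1 else 0 := by
  obtain ⟨h1, h2, h3⟩ := hy
  simp only [fld_bs, Fin.sum_univ_four]
  fin_cases i <;> fin_cases l <;> simp [gk, gik, ev, xs, xq, xp] <;> field_simp <;>
    simp only [Del, Sig] <;> ring

/-- A component of the Ricci curvature. -/
noncomputable def rk (M a : ℝ) (y : R4) (j l : Fin 4) : ℝ :=
  ∑ i, ∑ n, gik M a y n i * rmA (gik M a y) (fun b c e => ev M a y (d b (gk c e)))
    (fun f b c e => ev M a y (d f (d b (gk c e)))) i j l n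

end Vale.Agent.P354RK
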